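import Vale.Agent.P238S.Fin

/-!
P238: lower bound `exp (c √(log n))` for the `ℓ₁` distortion of the edit distance on `{0,1}^n`.
-/

namespace Vale.Agent.Results.P238.ExpSqrt

/-- `c₁({0,1}^n, ED) ≥ exp (c √(log n))` for all large `n`. -/
theorem result : ∃ c : ℝ, 0 < c ∧ ∃ N : ℕ, ∀ n ≥ N,
    Real.exp (c * Real.sqrt (Real.log n))
      ≤ Vale.Agent.P238.c1 (Fin n → Bool) (Vale.Agent.P238.edDist n) :=
  Vale.Agent.P238S.main_exp

end Vale.Agent.Results.P238.ExpSqrt
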