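import Vale.Agent.P238.Final

/-!
P238: lower bound `c (log n)^2 / log log n` for the `ℓ₁` distortion of the edit distance on
`{0,1}^n`.
-/

namespace Vale.Agent.Results.P238.LogSquared

/-- `c₁({0,1}^n, ED) ≥ c (log n)² / log log n` for all large `n`. -/
theorem result : ∃ c : ℝ, 0 < c ∧ ∃ N : ℕ, ∀ n ≥ N,
    c * Real.log n ^ 2 / Real.log (Real.log n)
      ≤ Vale.Agent.P238.c1 (Fin n → Bool) (Vale.Agent.P238.edDist n) :=
  Vale.Agent.P238.main_lower

end Vale.Agent.Results.P238.LogSquared
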